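import Vale.Agent.P235.K5.H521.Fat
import Vale.Agent.P235.K5.H707.Tricho

/-!
# Wagner's step: the graph `V_8`, by minimal models (helper749, proof of helper427)
-/

set_option autoImplicit false

namespace Vale.Agent.P235.K5.H749

open SimpleGraph Vale.Agent.P235.H134 Vale.Agent.P235.H56
open Vale.Agent.P235.K5.H521 (Touch HasK5 k5_of)
open Vale.Agent.P235.K5.H707 (Cn cn_iff)

variable {V : Type} {G : SimpleGraph V}

/-- adjacency in the Wagner graph -/
abbrev W8 (i j : Fin 8) : Prop := j = i + 1 ∨ i = j + 1 ∨ j = i + 4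

theorem w8_symm : ∀ i j, W8 i j → W8 j i := by decide

theorem w8_ne : ∀ i j, W8 i j → i ≠ j := by decide

theorem w8_tri : ∀ i j k, W8 i j → W8 k i → ¬ W8 k j := by decide

theorem w8_nb : ∀ i j : Fin 8, W8 i j → ∃ a b : Fin 8, a ≠ i ∧ b ≠ i ∧ a ≠ j ∧ b ≠ j ∧ W8 i a ∧
    W8 i b ∧ ∀ x, W8 i x → x = j ∨ x = a ∨ x = b := by decide +kernel

theorem third : ∀ i j : Fin 8, ∃ k, k ≠ i ∧ k ≠ j := by decide

theorem three : ∀ i j k : Fin 8, i ≠ j → i ≠ k → j ≠ k → W8 i j → W8 i k → ¬ W8 j k := by decide

theorem nb3 : ∀ i j : Fin 8, W8 i j → ∃ k : Fin 3, ![i + 1, i + 4, i + 7] k = j := by decide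

theorem nb3' : ∀ (i : Fin 8) (k : Fin 3), W8 i (![i + 1, i + 4, i + 7] k) := by decide

/-- the `K_5` models in `V_8` with a chord -/
def gg (d x : Fin 8) : Fin 5 :=
  if d = 2 then ![0, 1, 2, 3, 3, 1, 4, 4] x
  else if d = 3 then ![0, 1, 1, 2, 3, 3, 4, 4] x
  else if d = 5 then ![0, 1, 1, 2, 2, 3, 4, 4] x
  else ![0, 1, 1, 2, 3, 3, 4, 2] x

/-- the contacts in `V_8` with the chord `a b` -/
def tb (a b i j : Fin 8) : Bool :=
  decide (W8 i j) || (decide (i = a) && decide (j = b)) || (decide (i = b) && decide (j = a))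

theorem gg1 : ∀ a b : Fin 8, a ≠ b → ¬ W8 a b → ∀ i j,
    gg (b - a) (i - a) = gg (b - a) (j - a) → i ≠ j → tb a b i j = true := by
  decide +kernel

theorem gg2 : ∀ a b : Fin 8, a ≠ b → ¬ W8 a b → ∀ c c' : Fin 5, c ≠ c' → ∃ i j,
    (decide (gg (b - a) (i - a) = c) && decide (gg (b - a) (j - a) = c') && tb a b i j) = true := by
  decide +kernel

/-! ### Connected sets -/

/-- a vertex which is not a cut vertex, different from `r` -/
theorem exists_noncut [Finite V] {Y : Set V} (hY : Cn G Y) {r : V} (hr : r ∈ Y)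
    (hne : Y ≠ {r}) : ∃ v ∈ Y, v ≠ r ∧ Cn G (Y \ {v}) := by
  obtain ⟨A, ⟨hrA, hAY, hAne, hA⟩, hmax⟩ :=
    (Set.toFinite {A : Set V | r ∈ A ∧ A ⊆ Y ∧ A ≠ Y ∧ Cn G A}).exists_maximalFor id _
      ⟨{r}, rfl, Set.singleton_subset_iff.2 hr, hne.symm, Cn.singleton r⟩
  obtain ⟨a, ha, b, hb, hab⟩ := hY.2 A hAY ⟨r, hrA⟩ hAne
  have h1 : Cn G (A ∪ {b}) := hA.union (Cn.singleton b) ha rfl hab
  have h2 : A ∪ {b} = Y := by
    by_contra h
    have h3 : A ∪ {b} ⊆ A := hmax ⟨Or.inl hrA,
      Set.union_subset hAY (Set.singleton_subset_iff.2 hb.1), h, h1⟩ Set.subset_union_left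
    exact hb.2 (h3 (Or.inr rfl))
  have h4 : Y \ {b} = A := by
    ext x
    constructor
    · rintro ⟨hx, hxb⟩
      rw [← h2] at hx
      exact hx.resolve_right hxb
    · intro hx
      exact ⟨hAY hx, fun h => hb.2 ((Set.mem_singleton_iff.1 h) ▸ hx)⟩
  exact ⟨b, hb.1, fun h => hb.2 (h ▸ hrA), h4 ▸ hA⟩

/-- a vertex which can be taken away, with the loss of at most one of three contacts -/
theorem shrink [Finite V] {X : Set V} (hX : Cn G X) (h2 : ∀ r, X ≠ {r}) (N : Fin 3 → Set V)
    (hN : ∀ k, Touch G X (N k)) :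
    ∃ v ∈ X, Cn G (X \ {v}) ∧ ∃ k, ∀ l, l ≠ k → Touch G (X \ {v}) (N l) := by
  obtain ⟨r, hr⟩ := hX.1
  obtain ⟨v, hv, -, hcv⟩ := exists_noncut hX hr (h2 r)
  obtain ⟨w, hw, hwv, hcw⟩ := exists_noncut hX hv (h2 v)
  by_contra hcon
  push Not at hcon
  have h1 := hcon v hv hcv
  have h3 := hcon w hw hcw
  obtain ⟨l1, -, hl1⟩ := h1 0
  obtain ⟨l2, hl12, hl2⟩ := h1 l1
  obtain ⟨m1, -, hm1⟩ := h3 0
  obtain ⟨m2, hm12, hm2⟩ := h3 m1
  have key : ∀ l1 l2 m1 m2 : Fin 3, l2 ≠ l1 → m2 ≠ m1 →
      l1 = m1 ∨ l1 = m2 ∨ l2 = m1 ∨ l2 = m2 := by decide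
  have comm : ∀ l, ¬ Touch G (X \ {v}) (N l) → ¬ Touch G (X \ {w}) (N l) → False := by
    intro l ha hb
    obtain ⟨x, hx, y, hy, e⟩ := hN l
    refine ha ⟨x, ⟨hx, ?_⟩, y, hy, e⟩
    rintro rfl
    exact hb ⟨x, ⟨hx, fun h => hwv (Set.mem_singleton_iff.1 h).symm⟩, y, hy, e⟩
  rcases key l1 l2 m1 m2 hl12 hm12 with rfl | rfl | rfl | rfl
  · exact comm _ hl1 hm1
  · exact comm _ hl1 hm2
  · exact comm _ hl2 hm1
  · exact comm _ hl2 hm2

theorem touch_mono {X Y X' Y' : Set V} (h : Touch G X Y) (h1 : X ⊆ X') (h2 : Y ⊆ Y') :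
    Touch G X' Y' := by
  obtain ⟨x, hx, y, hy, e⟩ := h
  exact ⟨x, h1 hx, y, h2 hy, e⟩

theorem touch_symm {X Y : Set V} (h : Touch G X Y) : Touch G Y X := by
  obtain ⟨x, hx, y, hy, e⟩ := h
  exact ⟨y, hy, x, hx, e.symm⟩

theorem cn_union {X Y : Set V} (hX : Cn G X) (hY : Cn G Y) (h : Touch G X Y) : Cn G (X ∪ Y) := by
  obtain ⟨x, hx, y, hy, e⟩ := h
  exact hX.union hY hx hy e

/-- the removed vertex touches the rest -/
theorem touch_rest {X : Set V} (hX : Cn G X) {v : V} (hv : v ∈ X) (h2 : ∀ r, X ≠ {r}) :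
    Touch G {v} (X \ {v}) := by
  obtain ⟨a, ha, b, hb, hab⟩ := hX.2 {v} (Set.singleton_subset_iff.2 hv) ⟨v, rfl⟩ (h2 v).symm
  exact ⟨a, ha, b, hb, hab⟩

/-! ### Models -/

/-- the part `i` -/
def P {ι : Type} (f : V → Option ι) (i : ι) : Set V := {x | f x = some i}

/-- connected parts, touching as prescribed by `R` -/
structure Md {ι : Type} (G : SimpleGraph V) (R : ι → ι → Prop) (f : V → Option ι) : Prop where
  cn : ∀ i, Cn G (P f i)
  ad : ∀ i j, R i j → Touch G (P f i) (P f j)

theorem P_disj {ι : Type} {f : V → Option ι} {i j : ι} (h : i ≠ j) : Disjoint (P f i) (P f j) := by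
  rw [Set.disjoint_left]
  intro x hx hy
  exact h (Option.some.inj ((show f x = some i from hx).symm.trans hy))

section upd

variable {ι : Type} [DecidableEq V] {R : ι → ι → Prop} {f : V → Option ι}

theorem upd_ne {v : V} {i : ι} {c : Option ι} (hc : c ≠ some i) :
    P (Function.update f v c) i = P f i \ {v} := by
  ext x
  by_cases h : x = v
  · subst h
    simp [P, hc]
  · simp [P, h]

theorem upd_eq {v : V} {i : ι} : P (Function.update f v (some i)) i = P f i ∪ {v} := by
  ext x
  by_cases h : x = v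
  · subst h
    simp [P]
  · simp [P, h]

/-- the vertex `v` of the part `i` is dropped (`c = none`) or moved to the part `c` -/
theorem Md.mv (h : Md G R f) (hR : ∀ i j, R i j → R j i) (hi : ∀ i, ¬ R i i) {v : V} {i : ι}
    (hv : f v = some i) (h2 : ∀ r, P f i ≠ {r}) (hc : Cn G (P f i \ {v})) {c : Option ι}
    (hci : c ≠ some i) (hk : ∀ k, c = some k → Touch G {v} (P f k))
    (hj : ∀ j, R i j → c ≠ some j → Touch G (P f i \ {v}) (P f j)) :
    Md G R (Function.update f v c) := by
  have hvi : v ∈ P f i := hv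
  have e0 : P (Function.update f v c) i = P f i \ {v} := upd_ne hci
  have hnv : ∀ a, a ≠ i → v ∉ P f a := fun a ha h' =>
    ha (Option.some.inj ((show f v = some a from h').symm.trans hv))
  have mono : ∀ a, a ≠ i → P f a ⊆ P (Function.update f v c) a := by
    intro a ha
    by_cases hca : c = some a
    · subst hca
      rw [upd_eq]
      exact Set.subset_union_left
    · rw [upd_ne hca]
      intro x hx
      exact ⟨hx, fun h' => hnv a ha ((Set.mem_singleton_iff.1 h') ▸ hx)⟩
  have first : ∀ b, b ≠ i → R i b →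
      Touch G (P (Function.update f v c) i) (P (Function.update f v c) b) := by
    intro b hb hab
    rw [e0]
    by_cases hca : c = some b
    · subst hca
      rw [upd_eq]
      exact touch_mono (touch_symm (touch_rest (h.cn i) hvi h2)) subset_rfl
        Set.subset_union_right
    · exact touch_mono (hj b hab hca) subset_rfl (mono b hb)
  refine ⟨fun a => ?_, fun a b hab => ?_⟩
  · by_cases ha : a = i
    · subst ha
      rw [e0]
      exact hc
    · by_cases hca : c = some a
      · subst hca
        rw [upd_eq]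
        exact cn_union (h.cn a) (Cn.singleton v) (touch_symm (hk a rfl))
      · rw [upd_ne hca, Set.sdiff_singleton_eq_self (hnv a ha)]
        exact h.cn a
  · by_cases ha : a = i
    · subst ha
      exact first b (fun e => hi a (e ▸ hab)) hab
    · by_cases hb : b = i
      · subst hb
        exact touch_symm (first a ha (hR _ _ hab))
      · exact touch_mono (h.ad a b hab) (mono a ha) (mono b hb)

/-- a free vertex is added to the part `k` -/
theorem Md.grow (h : Md G R f) {y : V} {k : ι} (hy : f y = none) (hk : Touch G (P f k) {y}) :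
    Md G R (Function.update f y (some k)) := by
  have hny : ∀ a, y ∉ P f a := fun a h' => by
    have h'' : f y = some a := h'
    rw [hy] at h''
    exact absurd h'' (by simp)
  have e : ∀ a, a ≠ k → P (Function.update f y (some k)) a = P f a := fun a ha => by
    rw [upd_ne (fun h' => ha (Option.some.inj h').symm), Set.sdiff_singleton_eq_self (hny a)]
  have mono : ∀ a, P f a ⊆ P (Function.update f y (some k)) a := by
    intro a
    by_cases ha : a = k
    · subst ha
      rw [upd_eq]
      exact Set.subset_union_left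
    · rw [e a ha]
  refine ⟨fun a => ?_, fun a b hab => touch_mono (h.ad a b hab) (mono a) (mono b)⟩
  by_cases ha : a = k
  · subst ha
    rw [upd_eq]
    exact cn_union (h.cn a) (Cn.singleton y) hk
  · rw [e a ha]
    exact h.cn a

end upd

/-- the weight of a model -/
noncomputable def wt {ι : Type} [Fintype V] (w : Option ι → ℕ) (f : V → Option ι) : ℕ :=
  ∑ x, w (f x)

theorem wt_lt {ι : Type} [Fintype V] [DecidableEq V] (w : Option ι → ℕ) (f : V → Option ι)
    {v : V} {c : Option ι} (h : w c < w (f v)) : wt w (Function.update f v c) < wt w f := by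
  refine Finset.sum_lt_sum (fun x _ => ?_) ⟨v, Finset.mem_univ _, by simpa using h⟩
  by_cases hx : x = v
  · subst hx
    simpa using h.le
  · simp [hx]

theorem exists_min {ι : Type} [Fintype V] (w : Option ι → ℕ) {R : ι → ι → Prop}
    {f : V → Option ι} (hf : Md G R f) :
    ∃ f, Md G R f ∧ ∀ f', Md G R f' → ¬ wt w f' < wt w f := by
  obtain ⟨a, ha, hmin⟩ := WellFounded.has_min (measure (wt w)).wf {f | Md G R f} ⟨f, hf⟩
  exact ⟨a, ha, fun f' hf' => hmin f' hf'⟩

/-- `V_8` and a chord -/
theorem chord {f : V → Option (Fin 8)} (h : Md G W8 f) {a b : Fin 8} (hab : a ≠ b)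
    (hW : ¬ W8 a b) (ht : Touch G (P f a) (P f b)) : IsMinor (⊤ : SimpleGraph (Fin 5)) G := by
  have h1 := gg1 a b hab hW
  have h2 := gg2 a b hab hW
  have key : ∀ i j, tb a b i j = true → Touch G (P f i) (P f j) := by
    intro i j h3
    simp only [tb, Bool.or_eq_true, Bool.and_eq_true, decide_eq_true_eq] at h3
    rcases h3 with (h3 | ⟨rfl, rfl⟩) | ⟨rfl, rfl⟩
    · exact h.ad i j h3
    · exact ht
    · exact touch_symm ht
  refine k5_of (P f) (fun i => (h.cn i).connected) (fun i j hij => P_disj hij)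
    ⟨fun x => gg (b - a) (x - a), fun i j hg hij => key i j (h1 i j hg hij), fun c c' hc => ?_⟩
  obtain ⟨i, j, h3⟩ := h2 c c' hc
  simp only [Bool.and_eq_true, decide_eq_true_eq] at h3
  exact ⟨i, j, h3.1.1, h3.1.2, key i j h3.2⟩

/-! ### A subdivided edge -/

/-- `V_8` with the edge `i j` subdivided by the vertex `none` -/
def Rs (i j : Fin 8) : Option (Fin 8) → Option (Fin 8) → Prop
  | none, none => False
  | none, some a => a = i ∨ a = j
  | some a, none => a = i ∨ a = j
  | some a, some b => W8 a b ∧ ¬ (a = i ∧ b = j) ∧ ¬ (a = j ∧ b = i)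

theorem rs_symm {i j : Fin 8} : ∀ a b, Rs i j a b → Rs i j b a := by
  rintro (_ | a) (_ | b) h
  · exact h
  · exact h
  · exact h
  · exact ⟨w8_symm _ _ h.1, fun h' => h.2.2 ⟨h'.2, h'.1⟩, fun h' => h.2.1 ⟨h'.2, h'.1⟩⟩

theorem rs_irr {i j : Fin 8} : ∀ a, ¬ Rs i j a a := by
  rintro (_ | a) h
  · exact h
  · exact w8_ne _ _ h.1 rfl

theorem rs_swap {i j : Fin 8} : ∀ a b, Rs i j a b → Rs j i a b := by
  rintro (_ | a) (_ | b) h
  · exact h
  · exact h.symm
  · exact h.symm
  · exact ⟨h.1, h.2.2, h.2.1⟩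

theorem Md.imp {ι : Type} {R R' : ι → ι → Prop} {f : V → Option ι} (h : Md G R f)
    (hR : ∀ a b, R' a b → R a b) : Md G R' f :=
  ⟨h.cn, fun a b hab => h.ad a b (hR a b hab)⟩

/-- the weight: `2` on the parts `i`, `j`, `0` on the part `none`, `1` elsewhere -/
def ws (i j : Fin 8) : Option (Option (Fin 8)) → ℕ
  | none => 1
  | some none => 0
  | some (some a) => if a = i ∨ a = j then 2 else 1

theorem ws_swap (i j : Fin 8) : ws i j = ws j i := by
  funext o
  rcases o with _ | _ | a
  · rfl
  · rfl
  · simp only [ws, or_comm]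

/-- in a minimal model the part `i` is a vertex -/
theorem single [Fintype V] {i j : Fin 8} (hij : W8 i j)
    {f : V → Option (Option (Fin 8))} (hf : Md G (Rs i j) f)
    (hmin : ∀ f', Md G (Rs i j) f' → ¬ wt (ws i j) f' < wt (ws i j) f) :
    ∃ p, P f (some i) = {p} := by
  classical
  by_contra hcon
  push Not at hcon
  obtain ⟨a, b, hai, hbi, haj, hbj, hia, hib, hnb⟩ := w8_nb i j hij
  have hji : j ≠ i := (w8_ne i j hij).symm
  have ra : Rs i j (some i) (some a) := ⟨hia, fun h => haj h.2, fun h => hai h.2⟩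
  have rb : Rs i j (some i) (some b) := ⟨hib, fun h => hbj h.2, fun h => hbi h.2⟩
  have rn : Rs i j (some i) none := Or.inl rfl
  let nb : Fin 3 → Option (Fin 8) := ![none, some a, some b]
  have hnb3 : ∀ k, Rs i j (some i) (nb k) := by
    intro k
    fin_cases k
    · exact rn
    · exact ra
    · exact rb
  have hall : ∀ o, Rs i j (some i) o → ∃ k, nb k = o := by
    rintro (_ | x) h
    · exact ⟨0, rfl⟩
    · rcases hnb x h.1 with rfl | rfl | rfl
      · exact absurd ⟨rfl, rfl⟩ h.2.1
      · exact ⟨1, rfl⟩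
      · exact ⟨2, rfl⟩
  obtain ⟨v, hv, hcv, k, hk⟩ := shrink (hf.cn (some i)) hcon (fun k => P f (nb k))
    (fun k => hf.ad _ _ (hnb3 k))
  have hv' : f v = some (some i) := hv
  have hwv : ws i j (f v) = 2 := by
    rw [hv']
    simp [ws]
  by_cases hT : Touch G (P f (some i) \ {v}) (P f (nb k))
  · -- drop `v`
    have hall' : ∀ o, Rs i j (some i) o → Touch G (P f (some i) \ {v}) (P f o) := by
      intro o ho
      obtain ⟨l, rfl⟩ := hall o ho
      by_cases hl : l = k
      · exact hl ▸ hT
      · exact hk l hl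
    refine hmin _ (hf.mv (c := none) rs_symm rs_irr hv' hcon hcv (by simp) (by simp)
      (fun o ho _ => hall' o ho)) (wt_lt _ _ ?_)
    rw [hwv]
    simp [ws]
  · -- move `v`
    have hvk : Touch G {v} (P f (nb k)) := by
      obtain ⟨x, hx, y, hy, e⟩ := hf.ad _ _ (hnb3 k)
      have hxv : x = v := by
        by_contra h
        exact hT ⟨x, ⟨hx, h⟩, y, hy, e⟩
      exact ⟨x, hxv, y, hy, e⟩
    have hki : nb k ≠ some i := by
      intro h
      have := hnb3 k
      rw [h] at this
      exact rs_irr _ this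
    refine hmin _ (hf.mv (c := some (nb k)) rs_symm rs_irr hv' hcon hcv
      (fun h => hki (Option.some.inj h)) (fun l hl => (Option.some.inj hl) ▸ hvk)
      (fun o ho hne => ?_)) (wt_lt _ _ ?_)
    · obtain ⟨l, rfl⟩ := hall o ho
      exact hk l (fun h => hne (by rw [h]))
    · rw [hwv]
      revert k
      intro k _ _ _ _
      fin_cases k
      · simp [nb, ws]
      · simp [nb, ws, hai, haj]
      · simp [nb, ws, hbi, hbj]

/-- the part `none` is merged into the part `i` -/
theorem merge {i j : Fin 8} (hij : W8 i j) {f : V → Option (Option (Fin 8))}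
    (hf : Md G (Rs i j) f) {k : Fin 8} (hki : i ≠ k) (hW : ¬ W8 i k)
    (ht : Touch G (P f none) (P f (some k))) : IsMinor (⊤ : SimpleGraph (Fin 5)) G := by
  let f' : V → Option (Fin 8) := fun x => (f x).map (·.getD i)
  have e1 : P f' i = P f (some i) ∪ P f none := by
    ext x
    show (f x).map (·.getD i) = some i ↔ f x = some (some i) ∨ f x = some none
    rcases f x with _ | _ | a <;> simp
  have e2 : ∀ a, a ≠ i → P f' a = P f (some a) := by
    intro a ha
    ext x
    show (f x).map (·.getD i) = some a ↔ f x = some (some a)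
    rcases f x with _ | _ | c
    · simp
    · simp [ha.symm]
    · simp
  have mono : ∀ a, P f (some a) ⊆ P f' a := by
    intro a
    by_cases ha : a = i
    · subst ha
      rw [e1]
      exact Set.subset_union_left
    · rw [e2 a ha]
  have hQ : P f none ⊆ P f' i := by
    rw [e1]
    exact Set.subset_union_right
  have hij' : Touch G (P f' i) (P f' j) :=
    touch_mono (hf.ad none (some j) (Or.inr rfl)) hQ (mono j)
  refine chord (f := f') ⟨fun a => ?_, fun a b hab => ?_⟩ hki hW (touch_mono ht hQ (mono k))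
  · by_cases ha : a = i
    · subst ha
      rw [e1]
      exact cn_union (hf.cn _) (hf.cn _) (hf.ad (some a) none (Or.inl rfl))
    · rw [e2 a ha]
      exact hf.cn _
  · by_cases h1 : a = i ∧ b = j
    · obtain ⟨rfl, rfl⟩ := h1
      exact hij'
    · by_cases h2 : a = j ∧ b = i
      · obtain ⟨rfl, rfl⟩ := h2
        exact touch_symm hij'
      · exact touch_mono (hf.ad (some a) (some b) ⟨hab, h1, h2⟩) (mono a) (mono b)

/-- **(V8a)** no model of `V_8` with a subdivided edge -/
theorem sub8 [Finite V] (hG : Conn3 G) (h5 : ¬ IsMinor (⊤ : SimpleGraph (Fin 5)) G)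
    {i j : Fin 8} (hij : W8 i j) (f₀ : V → Option (Option (Fin 8))) : ¬ Md G (Rs i j) f₀ := by
  classical
  have := Fintype.ofFinite V
  intro hf₀
  obtain ⟨f, hf, hmin⟩ := exists_min (ws i j) hf₀
  obtain ⟨p, hp⟩ := single hij hf hmin
  have hf' : Md G (Rs j i) f := hf.imp rs_swap
  obtain ⟨q, hq⟩ := single (w8_symm _ _ hij) hf' (fun f' hf'' => by
    rw [← ws_swap i j]
    exact hmin f' (hf''.imp rs_swap))
  have key : ∃ x ∈ P f none, ∃ y, G.Adj x y ∧ y ∉ P f none ∧ y ≠ p ∧ y ≠ q := by
    by_contra hcon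
    push Not at hcon
    obtain ⟨k, hki, hkj⟩ := third i j
    obtain ⟨y, hy⟩ := (hf.cn (some k)).1
    have hp' : p ∈ P f (some i) := hp ▸ rfl
    have hq' : q ∈ P f (some j) := hq ▸ rfl
    have hd : ∀ a b : Option (Fin 8), a ≠ b → ∀ x, x ∈ P f a → x ∉ P f b := fun a b hab x hx hx' =>
      Set.disjoint_left.1 (P_disj hab) hx hx'
    rcases hG p q (P f none) (hf.cn none).1 (hd (some i) none (by simp) p hp')
      (hd (some j) none (by simp) q hq') (fun u hu v huv => by
        by_cases h1 : v ∈ P f none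
        · exact Or.inl h1
        · by_cases h2 : v = p
          · exact Or.inr (Or.inl h2)
          · exact Or.inr (Or.inr (hcon u hu v huv h1 h2))) y with h | h | h
    · exact hd (some k) none (by simp) y hy h
    · exact hd (some k) (some i) (by simpa using hki) y hy (h ▸ hp')
    · exact hd (some k) (some j) (by simpa using hkj) y hy (h ▸ hq')
  obtain ⟨x, hx, y, hxy, hyQ, hyp, hyq⟩ := key
  rcases hy : f y with _ | _ | k
  · refine hmin _ (hf.grow (k := none) hy ⟨x, hx, y, rfl, hxy⟩) (wt_lt _ _ ?_)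
    rw [hy]
    simp [ws]
  · exact hyQ hy
  · have hki : i ≠ k := by
      rintro rfl
      have : y ∈ P f (some i) := hy
      rw [hp] at this
      exact hyp this
    have hkj : j ≠ k := by
      rintro rfl
      have : y ∈ P f (some j) := hy
      rw [hq] at this
      exact hyq this
    have ht : Touch G (P f none) (P f (some k)) := ⟨x, hx, y, hy, hxy⟩
    by_cases hW : W8 i k
    · refine h5 (merge (w8_symm _ _ hij) hf' hkj (fun h => ?_) ht)
      exact w8_tri i j k hij (w8_symm _ _ hW) (w8_symm _ _ h)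
    · exact h5 (merge hij hf hki hW ht)

/-! ### The end -/

/-- the weight: the number of vertices in the parts -/
def w1 : Option (Fin 8) → ℕ
  | none => 0
  | some _ => 1

/-- in a minimal model of `V_8` all parts are vertices -/
theorem single8 [Fintype V] (hG : Conn3 G) (h5 : ¬ IsMinor (⊤ : SimpleGraph (Fin 5)) G)
    {f : V → Option (Fin 8)} (hf : Md G W8 f)
    (hmin : ∀ f', Md G W8 f' → ¬ wt w1 f' < wt w1 f) (i : Fin 8) : ∃ p, P f i = {p} := by
  classical
  by_contra hcon
  push Not at hcon
  let nb : Fin 3 → Fin 8 := ![i + 1, i + 4, i + 7]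
  have hnb3 : ∀ k, W8 i (nb k) := nb3' i
  have hall : ∀ o, W8 i o → ∃ k, nb k = o := nb3 i
  obtain ⟨v, hv, hcv, k, hk⟩ := shrink (hf.cn i) hcon (fun k => P f (nb k))
    (fun k => hf.ad _ _ (hnb3 k))
  have hv' : f v = some i := hv
  have hirr : ∀ i, ¬ W8 i i := fun i h => w8_ne i i h rfl
  by_cases hT : Touch G (P f i \ {v}) (P f (nb k))
  · have hall' : ∀ o, W8 i o → Touch G (P f i \ {v}) (P f o) := by
      intro o ho
      obtain ⟨l, rfl⟩ := hall o ho
      by_cases hl : l = k
      · exact hl ▸ hT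
      · exact hk l hl
    refine hmin _ (hf.mv (c := none) w8_symm hirr hv' hcon hcv (by simp) (by simp)
      (fun o ho _ => hall' o ho)) (wt_lt _ _ ?_)
    rw [hv']
    simp [w1]
  · have hvk : Touch G {v} (P f (nb k)) := by
      obtain ⟨x, hx, y, hy, e⟩ := hf.ad _ _ (hnb3 k)
      have hxv : x = v := by
        by_contra h
        exact hT ⟨x, ⟨hx, h⟩, y, hy, e⟩
      exact ⟨x, hxv, y, hy, e⟩
    have hki : nb k ≠ i := fun h => w8_ne _ _ (hnb3 k) h.symm
    let f' : V → Option (Option (Fin 8)) := fun x => if x = v then some none else (f x).map some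
    have e1 : P f' none = {v} := by
      ext x
      show (if x = v then some none else (f x).map some) = some none ↔ x = v
      by_cases h : x = v
      · simp [h]
      · simp [h]
    have e2 : ∀ a, P f' (some a) = P f a \ {v} := by
      intro a
      ext x
      show (if x = v then some none else (f x).map some) = some (some a) ↔ f x = some a ∧ x ≠ v
      by_cases h : x = v
      · simp [h]
      · simp [h]
    have e3 : ∀ a, a ≠ i → P f' (some a) = P f a := by
      intro a ha
      rw [e2, Set.sdiff_singleton_eq_self]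
      intro h
      exact ha (Option.some.inj ((show f v = some a from h).symm.trans hv'))
    have first : ∀ b, W8 i b → b ≠ nb k → Touch G (P f' (some i)) (P f' (some b)) := by
      intro b hb hbk
      rw [e2, e3 b (w8_ne _ _ hb).symm]
      obtain ⟨l, rfl⟩ := hall b hb
      exact hk l (fun h => hbk (by rw [h]))
    have n1 : Touch G (P f' none) (P f' (some i)) := by
      rw [e1, e2]
      exact touch_rest (hf.cn i) hv hcon
    have n2 : Touch G (P f' none) (P f' (some (nb k))) := by
      rw [e1, e3 _ hki]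
      exact hvk
    refine sub8 hG h5 (hnb3 k) f' ⟨?_, ?_⟩
    · rintro (_ | a)
      · rw [e1]
        exact Cn.singleton v
      · by_cases ha : a = i
        · subst ha
          rw [e2]
          exact hcv
        · rw [e3 a ha]
          exact hf.cn a
    · rintro (_ | a) (_ | b) h
      · exact absurd h id
      · rcases h with rfl | rfl
        · exact n1
        · exact n2
      · rcases h with rfl | rfl
        · exact touch_symm n1
        · exact touch_symm n2
      · by_cases ha : a = i
        · subst ha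
          exact first b h.1 (fun hb => h.2.1 ⟨rfl, hb⟩)
        · by_cases hb : b = i
          · subst hb
            exact touch_symm (first a (w8_symm _ _ h.1) (fun ha' => h.2.2 ⟨ha', rfl⟩))
          · rw [e3 a ha, e3 b hb]
            exact hf.ad a b h.1

/-- **(V8b)** a 3-connected graph with a model of `V_8` and without a `K_5` minor -/
theorem v8 [Finite V] (hG : Conn3 G) (h5 : ¬ IsMinor (⊤ : SimpleGraph (Fin 5)) G)
    {f₀ : V → Option (Fin 8)} (hf₀ : Md G W8 f₀) :
    ∃ u : Fin 8 → V, Function.Bijective u ∧ ∀ a b, G.Adj (u a) (u b) ↔ W8 a b := by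
  classical
  have := Fintype.ofFinite V
  obtain ⟨f, hf, hmin⟩ := exists_min w1 hf₀
  choose u hu using single8 hG h5 hf hmin
  have hfu : ∀ a, f (u a) = some a := fun a => by
    have : u a ∈ P f a := by rw [hu a]; rfl
    exact this
  have hmem : ∀ a x, f x = some a → x = u a := fun a x hx => by
    have : x ∈ P f a := hx
    rw [hu a] at this
    exact this
  have hinj : Function.Injective u := fun a b h => by
    have := hfu a
    rw [h, hfu b] at this
    exact (Option.some.inj this).symm
  have hadj : ∀ a b, G.Adj (u a) (u b) → W8 a b := by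
    intro a b h
    by_contra hW
    have hab : a ≠ b := fun e => G.loopless.irrefl _ (e ▸ h)
    exact h5 (chord hf hab hW ⟨u a, hfu a, u b, hfu b, h⟩)
  have hadj' : ∀ a b, W8 a b → G.Adj (u a) (u b) := by
    intro a b h
    obtain ⟨x, hx, y, hy, e⟩ := hf.ad a b h
    rw [← hmem a x hx, ← hmem b y hy]
    exact e
  have hnone : ∀ x, f x ≠ none := by
    intro x₀ hx₀
    obtain ⟨D, ⟨hxD, hDn, hD⟩, hmax⟩ :=
      (Set.toFinite {D : Set V | x₀ ∈ D ∧ (∀ x ∈ D, f x = none) ∧ Cn G D}).exists_maximalFor id _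
        ⟨{x₀}, rfl, by rintro _ rfl; exact hx₀, Cn.singleton x₀⟩
    have huD : ∀ a, u a ∉ D := fun a h => by
      have := hDn _ h
      rw [hfu a] at this
      exact absurd this (by simp)
    have hout : ∀ x ∈ D, ∀ y, G.Adj x y → y ∉ D → ∃ a, y = u a := by
      intro x hx y hxy hy
      rcases hfy : f y with _ | a
      · exfalso
        have h1 : D ∪ {y} ⊆ D := hmax ⟨Or.inl hxD, by
          rintro z (hz | rfl)
          · exact hDn z hz
          · exact hfy, hD.union (Cn.singleton y) hx rfl hxy⟩ Set.subset_union_left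
        exact hy (h1 (Or.inr rfl))
      · exact ⟨a, hmem a y hfy⟩
    -- a neighbour outside two given vertices
    have step : ∀ a b : Fin 8, ∃ c, c ≠ a ∧ c ≠ b ∧ Touch G D {u c} := by
      intro a b
      by_contra hcon
      push Not at hcon
      obtain ⟨k, hka, hkb⟩ := third a b
      rcases hG (u a) (u b) D hD.1 (huD a) (huD b) (fun x hx y hxy => by
        by_cases h1 : y ∈ D
        · exact Or.inl h1
        · obtain ⟨c, rfl⟩ := hout x hx y hxy h1
          by_cases h2 : c = a
          · exact Or.inr (Or.inl (by rw [h2]))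
          · by_cases h3 : c = b
            · exact Or.inr (Or.inr (by rw [h3]))
            · exact absurd ⟨x, hx, u c, rfl, hxy⟩ (hcon c h2 h3)) (u k) with h | h | h
      · exact huD k h
      · exact hka (hinj h)
      · exact hkb (hinj h)
    obtain ⟨a, -, -, ha⟩ := step 0 0
    obtain ⟨b, hba, -, hb⟩ := step a a
    obtain ⟨c, hca, hcb, hc⟩ := step a b
    -- adding `D` to the part `a`
    have add : ∀ a b : Fin 8, a ≠ b → Touch G D {u a} → Touch G D {u b} → W8 a b := by
      intro a b hab ha hb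
      by_contra hW
      let f' : V → Option (Fin 8) := fun x => if x ∈ D then some a else f x
      have e1 : P f' a = P f a ∪ D := by
        ext x
        show (if x ∈ D then some a else f x) = some a ↔ f x = some a ∨ x ∈ D
        by_cases h : x ∈ D
        · simp [h]
        · simp [h]
      have e2 : ∀ c, c ≠ a → P f' c = P f c := by
        intro c hc
        ext x
        show (if x ∈ D then some a else f x) = some c ↔ f x = some c
        by_cases h : x ∈ D
        · simp [h, hDn x h, hc.symm]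
        · simp [h]
      have mono : ∀ c, P f c ⊆ P f' c := by
        intro c
        by_cases hc : c = a
        · subst hc
          rw [e1]
          exact Set.subset_union_left
        · rw [e2 c hc]
      refine h5 (chord (f := f') ⟨fun c => ?_, fun c d hcd =>
        touch_mono (hf.ad c d hcd) (mono c) (mono d)⟩ hab hW ?_)
      · by_cases hc : c = a
        · subst hc
          rw [e1, hu c]
          exact cn_union (Cn.singleton _) hD (touch_symm ha)
        · rw [e2 c hc]
          exact hf.cn c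
      · refine touch_mono hb ?_ ?_
        · rw [e1]
          exact Set.subset_union_right
        · rw [← hu b]
          exact mono b
    exact three a b c hba.symm hca.symm hcb.symm (add a b hba.symm ha hb) (add a c hca.symm ha hc)
      (add b c hcb.symm hb hc)
  refine ⟨u, ⟨hinj, fun x => ?_⟩, fun a b => ⟨hadj a b, hadj' a b⟩⟩
  rcases hfx : f x with _ | a
  · exact absurd hfx (hnone x)
  · exact ⟨a, (hmem a x hfx).symm⟩

/-- the conclusion of the row [W-V8] -/
theorem v8_card [Finite V] (hG : Conn3 G) (h5 : ¬ IsMinor (⊤ : SimpleGraph (Fin 5)) G)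
    {f₀ : V → Option (Fin 8)} (hf₀ : Md G W8 f₀) :
    Nat.card V = 8 ∧ ∀ x y z, G.Adj x y → G.Adj y z → ¬ G.Adj x z := by
  obtain ⟨u, hu, h⟩ := v8 hG h5 hf₀
  constructor
  · rw [← Nat.card_congr (Equiv.ofBijective u hu)]
    simp
  · intro x y z
    obtain ⟨a, rfl⟩ := hu.2 x
    obtain ⟨b, rfl⟩ := hu.2 y
    obtain ⟨c, rfl⟩ := hu.2 z
    rw [h, h, h]
    exact fun h1 h2 h3 => w8_tri a b c h1 (w8_symm _ _ h3) (w8_symm _ _ h2)

/-- branch sets as a partial map -/
theorem md_of (μ : Fin 8 → Set V) (hc : ∀ a, (G.induce (μ a)).Connected)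
    (hd : ∀ a b, a ≠ b → Disjoint (μ a) (μ b)) (ha : ∀ a b, W8 a b → Touch G (μ a) (μ b)) :
    ∃ f : V → Option (Fin 8), Md G W8 f := by
  classical
  let f : V → Option (Fin 8) := fun x => if h : ∃ a, x ∈ μ a then some h.choose else none
  have e : ∀ a, P f a = μ a := by
    intro a
    ext x
    show (if h : ∃ a, x ∈ μ a then some h.choose else none) = some a ↔ x ∈ μ a
    by_cases h : ∃ a, x ∈ μ a
    · rw [dif_pos h]
      constructor
      · intro h'
        have := h.choose_spec
        rwa [Option.some.inj h'] at this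
      · intro hx
        by_contra hne
        exact Set.disjoint_left.1 (hd h.choose a (fun h' => hne (by rw [h'])) ) h.choose_spec hx
    · rw [dif_neg h]
      constructor
      · intro h'
        exact absurd h' (by simp)
      · intro hx
        exact absurd ⟨a, hx⟩ h
  exact ⟨f, fun a => by rw [e]; exact Cn.of_connected (hc a), fun a b hab => by
    rw [e, e]; exact ha a b hab⟩

/-- the form with branch sets (`H521.V8Model`) -/
theorem v8_model [Finite V] (hG : Conn3 G) (h5 : ¬ IsMinor (⊤ : SimpleGraph (Fin 5)) G)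
    (h : H521.V8Model G) : Nat.card V = 8 ∧ ∀ x y z, G.Adj x y → G.Adj y z → ¬ G.Adj x z := by
  obtain ⟨μ, hc, hd, -, ha⟩ := h
  obtain ⟨f, hf⟩ := md_of μ hc hd (fun a b hab => by
    rcases hab with rfl | rfl | rfl
    · exact (ha a).1
    · exact touch_symm (ha b).1
    · exact (ha a).2)
  exact v8_card hG h5 hf

/-- a 3-connected graph with three vertices is connected -/
theorem conn3_connected (hG : Conn3 G) {x y z : V} (hxy : x ≠ y) (hxz : x ≠ z) (hyz : y ≠ z) :
    G.Connected := by
  rw [connected_iff_exists_forall_reachable]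
  refine ⟨x, fun w => ?_⟩
  by_contra hw
  have h1 : ∀ v, G.Reachable x v ∨ v = w := fun v => by
    rcases hG w w {v | G.Reachable x v} ⟨x, Reachable.refl x⟩ hw hw (fun u hu v huv =>
      Or.inl ((show G.Reachable x u from hu).trans huv.reachable)) v with h | h | h
    · exact Or.inl h
    · exact Or.inr h
    · exact Or.inr h
  have hxw : x ≠ w := by
    rintro rfl
    exact hw (Reachable.refl x)
  have h2 : ∀ v, v = w ∨ v = x := fun v => by
    rcases hG x x {w} ⟨w, rfl⟩ hxw hxw (fun u hu v huv => by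
      left
      have hu' : u = w := hu
      subst hu'
      rcases h1 v with h | h
      · exact absurd (h.trans huv.symm.reachable) hw
      · exact h) v with h | h | h
    · exact Or.inl h
    · exact Or.inr h
    · exact Or.inr h
  rcases h2 y with h | h
  · rcases h2 z with h' | h'
    · exact hyz (h.trans h'.symm)
    · exact hxz h'.symm
  · exact hxy h.symm

end Vale.Agent.P235.K5.H749
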