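import Vale.Agent.P235.K5.Wagner
import Vale.Agent.P235.K5.H749.V8

/-!
# Row [W8] in the letters of `K5/Wagner` (helper749)
-/

set_option autoImplicit false

namespace Vale.Agent.P235.K5.H749

open SimpleGraph Vale.Agent.P235.H134 Vale.Agent.P235.H56

theorem v8_adj {a b : Fin 8} (h : W8 a b) : W.V8.Adj a b := by
  refine (SimpleGraph.fromRel_adj _ _ _).2 ⟨w8_ne a b h, ?_⟩
  rcases h with h | h | h
  · exact Or.inl (Or.inl h)
  · exact Or.inr (Or.inl h)
  · exact Or.inl (Or.inr h)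

/-- **[W8]**, no hypothesis -/
theorem v8StmtG : W.V8Stmt := by
  intro V _ G hG h8 h5
  obtain ⟨μ, hc, hd, ha⟩ := h8
  obtain ⟨f, hf⟩ := md_of μ hc hd (fun a b hab => ha a b (v8_adj hab))
  exact (v8_card hG h5 hf).1

end Vale.Agent.P235.K5.H749
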