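import Vale.Agent.P235.K5.W.Defs
import Vale.Agent.P235.K5.H749.V8

/-!
# Row [W-V8] in the letters of `K5/W/Defs` (helper749)
-/

set_option autoImplicit false

namespace Vale.Agent.P235.K5.H749

open SimpleGraph Vale.Agent.P235.H134 Vale.Agent.P235.H56
open Vale.Agent.P235.K5.H707 (Cn)

theorem md_of_has {V : Type} {G : SimpleGraph V} {f : V → Fin 8} (hf : W.Mdl G f)
    (ha : ∀ i j, W.V8.Adj i j → W.Tch G f i j) : Md G W8 fun x => some (f x) := by
  have e : ∀ i, P (fun x => some (f x)) i = {v | f v = i} := by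
    intro i
    ext x
    exact ⟨fun h => Option.some.inj h, fun h => congrArg some h⟩
  refine ⟨fun i => ?_, fun i j hij => ?_⟩
  · rw [e]
    exact Cn.of_connected (hf i)
  · rw [e, e]
    obtain ⟨u, v, hu, hv, huv⟩ := ha i j hij
    exact ⟨u, hu, v, hv, huv⟩

/-- [W-V8], with minors -/
theorem v8_has {V : Type} [Finite V] {G : SimpleGraph V} (hG : Conn3 G)
    (h5 : ¬ IsMinor W.KF G) (h : W.Has W.V8 G) :
    Nat.card V = 8 ∧ ∀ x y z, G.Adj x y → G.Adj y z → ¬ G.Adj x z := by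
  obtain ⟨f, hf, ha⟩ := h
  exact v8_card hG h5 (md_of_has hf ha)

/-- **[W-V8]** from [W-MK] -/
theorem v8Stmt (hMk : W.MkStmt) : W.V8Stmt := by
  intro V _ G hG h5 h
  refine v8_has hG (fun h' => h5 ?_) h
  obtain ⟨f, hf, -⟩ := h
  obtain ⟨⟨x, hx⟩⟩ := (hf 0).nonempty
  obtain ⟨⟨y, hy⟩⟩ := (hf 1).nonempty
  obtain ⟨⟨z, hz⟩⟩ := (hf 2).nonempty
  have hx' : f x = 0 := hx
  have hy' : f y = 1 := hy
  have hz' : f z = 2 := hz
  refine (hMk V (Fin 5) W.KF G (conn3_connected hG (x := x) (y := y) (z := z) ?_ ?_ ?_)).1 h'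
  · rintro rfl
    rw [hx'] at hy'
    exact absurd hy' (by decide)
  · rintro rfl
    rw [hx'] at hz'
    exact absurd hz' (by decide)
  · rintro rfl
    rw [hy'] at hz'
    exact absurd hz' (by decide)

end Vale.Agent.P235.K5.H749
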